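import Mathlib.Analysis.Calculus.Deriv.Mul
import Mathlib.Analysis.Calculus.Deriv.Add
import Mathlib.Analysis.Calculus.Deriv.Pow
import Mathlib.Analysis.Calculus.Deriv.Shift
import Mathlib.Data.Rat.Cast.Order
import Mathlib.Data.Real.Basic
import Mathlib.Tactic.Ring
import Mathlib.Tactic.Linarith
import Mathlib.Tactic.Positivity
import Mathlib.Tactic.FieldSimp

/-!
# P264, block S: polynomials as lists of rationals
-/

namespace Vale.Agent.P264Z.S

/-- evaluation at a real number -/
def pe : List ℚ → ℝ → ℝ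
  | [], _ => 0
  | a :: l, t => (a : ℝ) + t * pe l t

/-- evaluation at a rational number -/
def pq : List ℚ → ℚ → ℚ
  | [], _ => 0
  | a :: l, t => a + t * pq l t

/-- the bound `∑ |a_j| r^j` -/
def pb : List ℚ → ℚ → ℚ
  | [], _ => 0
  | a :: l, r => |a| + r * pb l r

def padd : List ℚ → List ℚ → List ℚ
  | [], q => q
  | a :: p, [] => a :: p
  | a :: p, b :: q => (a + b) :: padd p q

def psm (c : ℚ) : List ℚ → List ℚ
  | [] => []
  | a :: p => (c * a) :: psm c p

def pmul : List ℚ → List ℚ → List ℚ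
  | [], _ => []
  | a :: p, q => padd (psm a q) (0 :: pmul p q)

def pderAux : ℚ → List ℚ → List ℚ
  | _, [] => []
  | n, a :: l => (n * a) :: pderAux (n + 1) l

def pder : List ℚ → List ℚ
  | [] => []
  | _ :: l => pderAux 1 l

/-- multiplication by `xc + t` -/
def pX (xc : ℚ) (p : List ℚ) : List ℚ := padd (psm xc p) (0 :: p)

/-- lower bound on `|t| ≤ r` -/
def plow : List ℚ → ℚ → ℚ
  | [], _ => 0
  | a :: l, r => a - r * pb l r

theorem pe_nil (t : ℝ) : pe [] t = 0 := rfl
theorem pe_cons (a : ℚ) (l : List ℚ) (t : ℝ) : pe (a :: l) t = a + t * pe l t := rfl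

theorem pe_cast (l : List ℚ) (t : ℚ) : pe l t = (pq l t : ℚ) := by
  induction l with
  | nil => simp [pe, pq]
  | cons a l ih => simp [pe, pq, ih]

theorem pe_add (p q : List ℚ) (t : ℝ) : pe (padd p q) t = pe p t + pe q t := by
  induction p generalizing q with
  | nil => simp [pe, padd]
  | cons a p ih =>
    cases q with
    | nil => simp [pe, padd]
    | cons b q => simp only [padd, pe, ih, Rat.cast_add]; ring

theorem pe_sm (c : ℚ) (p : List ℚ) (t : ℝ) : pe (psm c p) t = c * pe p t := by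
  induction p with
  | nil => simp [pe, psm]
  | cons a p ih => simp only [psm, pe, ih, Rat.cast_mul]; ring

theorem pe_mul (p q : List ℚ) (t : ℝ) : pe (pmul p q) t = pe p t * pe q t := by
  induction p with
  | nil => simp [pe, pmul]
  | cons a p ih => simp only [pmul, pe_add, pe_sm, pe, ih, Rat.cast_zero]; ring

theorem pe_X (xc : ℚ) (p : List ℚ) (t : ℝ) : pe (pX xc p) t = (xc + t) * pe p t := by
  simp only [pX, pe_add, pe_sm, pe, Rat.cast_zero]; ring

theorem pe_derAux (n : ℚ) (l : List ℚ) (t : ℝ) :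
    pe (pderAux (n + 1) l) t = pe (pderAux n l) t + pe l t := by
  induction l generalizing n with
  | nil => simp [pe, pderAux]
  | cons a l ih =>
    simp only [pderAux, pe, Rat.cast_mul, Rat.cast_add, Rat.cast_one]
    rw [ih (n + 1)]
    ring

theorem pe_der_cons (a : ℚ) (l : List ℚ) (t : ℝ) :
    pe (pder (a :: l)) t = pe l t + t * pe (pder l) t := by
  cases l with
  | nil => simp [pe, pder, pderAux]
  | cons b l =>
    simp only [pder, pderAux, pe, Rat.cast_mul, Rat.cast_one]
    rw [pe_derAux]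
    ring

theorem hasDerivAt_pe (l : List ℚ) (t : ℝ) : HasDerivAt (pe l) (pe (pder l) t) t := by
  induction l with
  | nil => exact hasDerivAt_const t 0
  | cons a l ih =>
    rw [pe_der_cons]
    have h := ((hasDerivAt_id' t).fun_mul ih).const_add (a : ℝ)
    rw [one_mul] at h
    exact h

theorem hasDerivAt_pe_sub (l : List ℚ) (xc x : ℝ) :
    HasDerivAt (fun s => pe l (s - xc)) (pe (pder l) (x - xc)) x := by
  exact (hasDerivAt_pe l (x - xc)).comp_sub_const x xc

theorem pb_nonneg (l : List ℚ) {r : ℚ} (hr : 0 ≤ r) : 0 ≤ pb l r := by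
  induction l with
  | nil => simp [pb]
  | cons a l ih => simp only [pb]; positivity

theorem abs_pe_le (l : List ℚ) {r : ℚ} {t : ℝ} (ht : |t| ≤ r) : |pe l t| ≤ (pb l r : ℚ) := by
  induction l with
  | nil => simp [pe, pb]
  | cons a l ih =>
    simp only [pe, pb, Rat.cast_add, Rat.cast_mul, Rat.cast_abs]
    refine (abs_add_le _ _).trans (add_le_add le_rfl ?_)
    rw [abs_mul]
    exact mul_le_mul ht ih (abs_nonneg _) ((abs_nonneg _).trans ht)

theorem plow_le (l : List ℚ) {r : ℚ} {t : ℝ} (ht : |t| ≤ r) : ((plow l r : ℚ) : ℝ) ≤ pe l t := by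
  cases l with
  | nil => simp [pe, plow]
  | cons a l =>
    simp only [pe, plow, Rat.cast_sub, Rat.cast_mul]
    have h1 : |t * pe l t| ≤ r * (pb l r : ℚ) := by
      rw [abs_mul]
      exact mul_le_mul ht (abs_pe_le l ht) (abs_nonneg _) ((abs_nonneg _).trans ht)
    linarith [neg_abs_le (t * pe l t)]

/-- the operator `x² m'' + 22 x m' + 110 m` -/
def pM (xc : ℚ) (p : List ℚ) : List ℚ :=
  padd (pX xc (padd (pX xc (pder (pder p))) (psm 22 (pder p)))) (psm 110 p)

theorem pe_M (xc : ℚ) (p : List ℚ) (t : ℝ) : pe (pM xc p) t =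
    (xc + t) ^ 2 * pe (pder (pder p)) t + 22 * (xc + t) * pe (pder p) t + 110 * pe p t := by
  simp only [pM, pe_add, pe_X, pe_sm]
  push_cast
  ring

end Vale.Agent.P264Z.S
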