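import Mathlib.Analysis.Calculus.MeanValue
import Mathlib.Analysis.Calculus.Deriv.Slope
import Mathlib.Analysis.Calculus.Deriv.Pow

/-!
# P264, block S: the cone condition for a perturbation of `k' = 3 w A k`
-/

open Set Filter Topology

noncomputable section

namespace Vale.Agent.P264Z.S

/-- the perturbed linear system on `[4,∞)` -/
def ConeSys (k₀ k₁ k₂ : ℝ → ℝ) : Prop :=
  ∀ w, 4 ≤ w → ∃ b₁ b₂ : ℝ, HasDerivAt k₀ (3 * w * k₁ w) w ∧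
    HasDerivAt k₁ (3 * w * (k₂ w + b₁)) w ∧ HasDerivAt k₂ (3 * w * (-k₀ w + b₂)) w ∧
    (|k₀ w| ≤ 9000 → |k₁ w| ≤ 9000 → |k₂ w| ≤ 9000 → |b₁| ≤ 375 ∧ |b₂| ≤ 2500)

/-- the square norm of the unstable part -/
def nu (a b c : ℝ) : ℝ := a ^ 2 + b ^ 2 + c ^ 2 - (a - b + c) ^ 2 / 3

theorem abs_le_of_tube {a b c : ℝ} (h : nu a b c ≤ 4 * 10 ^ 7)
    (hs : (a - b + c) ^ 2 ≤ 12 * 10 ^ 7) : |a| ≤ 9000 ∧ |b| ≤ 9000 ∧ |c| ≤ 9000 := by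
  unfold nu at h
  refine ⟨abs_le_of_sq_le_sq ?_ (by norm_num), abs_le_of_sq_le_sq ?_ (by norm_num),
    abs_le_of_sq_le_sq ?_ (by norm_num)⟩ <;> nlinarith [sq_nonneg a, sq_nonneg b, sq_nonneg c]

theorem ConeSys.fence {k₀ k₁ k₂ : ℝ → ℝ} (h : ConeSys k₀ k₁ k₂)
    (hs : |k₀ 4 - k₁ 4 + k₂ 4| ≤ 10000) {w : ℝ} (hw : 4 ≤ w)
    (hn : ∀ v ∈ Ico 4 w, nu (k₀ v) (k₁ v) (k₂ v) ≤ 4 * 10 ^ 7) :
    (k₀ w - k₁ w + k₂ w) ^ 2 ≤ 12 * 10 ^ 7 := by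
  choose! b₁ b₂ hb using h
  have hd : ∀ v, 4 ≤ v → HasDerivAt (fun v => (k₀ v - k₁ v + k₂ v) ^ 2)
      (6 * v * ((k₀ v - k₁ v + k₂ v) * (-(k₀ v - k₁ v + k₂ v) - b₁ v + b₂ v))) v := by
    intro v hv
    obtain ⟨d0, d1, d2, -⟩ := hb v hv
    have := ((d0.sub d1).add d2).pow 2
    refine HasDerivAt.congr_deriv this ?_
    simp only [Pi.add_apply, Pi.sub_apply]
    push_cast
    ring
  refine image_le_of_deriv_right_lt_deriv_boundary (a := 4) (b := w)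
    (f := fun v => (k₀ v - k₁ v + k₂ v) ^ 2) (B := fun _ => 12 * 10 ^ 7) (B' := fun _ => 0)
    (fun v hv => (hd v hv.1).continuousAt.continuousWithinAt)
    (fun v hv => (hd v hv.1).hasDerivWithinAt) ?_ (fun v => hasDerivAt_const v _) ?_ ⟨hw, le_rfl⟩
  · have := sq_le_sq' (abs_le.1 hs).1 (abs_le.1 hs).2
    linarith
  · intro v hv he
    obtain ⟨a0, a1, a2⟩ := abs_le_of_tube (hn v hv) he.le
    obtain ⟨e1, e2⟩ := (hb v hv.1).2.2.2 a0 a1 a2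
    have hv0 : 0 < 6 * v := by linarith [hv.1]
    refine mul_neg_of_pos_of_neg hv0 ?_
    set s := k₀ v - k₁ v + k₂ v
    have e3 : (b₂ v - b₁ v) ^ 2 ≤ 2875 ^ 2 :=
      sq_le_sq' (by linarith [abs_le.1 e1, abs_le.1 e2]) (by linarith [abs_le.1 e1, abs_le.1 e2])
    nlinarith [sq_nonneg (s - (b₂ v - b₁ v))]

theorem exists_gt_of_deriv_pos {f : ℝ → ℝ} {d w b : ℝ} (h : HasDerivAt f d w) (hd : 0 < d)
    (hb : w < b) : ∃ v ∈ Ico w b, f w < f v := by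
  have h1 : ∀ᶠ v in 𝓝[≠] w, 0 < slope f w v :=
    (hasDerivAt_iff_tendsto_slope.1 h).eventually (lt_mem_nhds hd)
  have h2 : ∀ᶠ v in 𝓝[>] w, 0 < slope f w v :=
    h1.filter_mono (nhdsWithin_mono _ fun v hv => ne_of_gt hv)
  have h3 : ∀ᶠ v in 𝓝[>] w, v ∈ Ioo w b := Ioo_mem_nhdsGT hb
  obtain ⟨v, hv, hv'⟩ := (h2.and h3).exists
  refine ⟨v, ⟨hv'.1.le, hv'.2⟩, ?_⟩
  rw [slope_def_field] at hv
  have := (div_pos_iff_of_pos_right (sub_pos.2 hv'.1)).1 hv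
  linarith

theorem ConeSys.exit {k₀ k₁ k₂ : ℝ → ℝ} (h : ConeSys k₀ k₁ k₂)
    (hs : |k₀ 4 - k₁ 4 + k₂ 4| ≤ 10000) {w : ℝ} (hw : 4 ≤ w)
    (hn : ∀ v ∈ Ico 4 w, nu (k₀ v) (k₁ v) (k₂ v) < 4 * 10 ^ 7)
    (hr : 4 * 10 ^ 7 ≤ nu (k₀ w) (k₁ w) (k₂ w)) {b : ℝ} (hb : w < b) :
    ∃ v ∈ Ico w b, 4 * 10 ^ 7 < nu (k₀ v) (k₁ v) (k₂ v) := by
  rcases hr.lt_or_eq with hr | hr
  · exact ⟨w, ⟨le_rfl, hb⟩, hr⟩
  have hf := h.fence hs hw fun v hv => (hn v hv).le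
  obtain ⟨a0, a1, a2⟩ := abs_le_of_tube hr.ge hf
  obtain ⟨b₁, b₂, d0, d1, d2, hbd⟩ := h w hw
  obtain ⟨e1, e2⟩ := hbd a0 a1 a2
  have hd : HasDerivAt (fun v => nu (k₀ v) (k₁ v) (k₂ v))
      (3 * w * (nu (k₀ w) (k₁ w) (k₂ w) + 2 * b₁ * (k₁ w + (k₀ w - k₁ w + k₂ w) / 3) +
        2 * b₂ * (k₂ w - (k₀ w - k₁ w + k₂ w) / 3))) w := by
    have := (((d0.pow 2).add (d1.pow 2)).add (d2.pow 2)).sub
      ((((d0.sub d1).add d2).pow 2).div_const 3)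
    refine HasDerivAt.congr_deriv this ?_
    simp only [Pi.add_apply, Pi.sub_apply, nu]
    push_cast
    ring
  rw [hr]
  refine exists_gt_of_deriv_pos hd (mul_pos (by linarith) ?_) hb
  have q1 : b₁ ^ 2 ≤ 375 ^ 2 := sq_le_sq' (abs_le.1 e1).1 (abs_le.1 e1).2
  have q2 : b₂ ^ 2 ≤ 2500 ^ 2 := sq_le_sq' (abs_le.1 e2).1 (abs_le.1 e2).2
  have q3 : nu (k₀ w) (k₁ w) (k₂ w) = (k₀ w - (k₀ w - k₁ w + k₂ w) / 3) ^ 2 +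
      (k₁ w + (k₀ w - k₁ w + k₂ w) / 3) ^ 2 + (k₂ w - (k₀ w - k₁ w + k₂ w) / 3) ^ 2 := by
    unfold nu
    ring
  set v₀ := k₀ w - (k₀ w - k₁ w + k₂ w) / 3
  set v₁ := k₁ w + (k₀ w - k₁ w + k₂ w) / 3
  set v₂ := k₂ w - (k₀ w - k₁ w + k₂ w) / 3
  nlinarith [sq_nonneg v₀, sq_nonneg (v₁ + 2 * b₁), sq_nonneg (v₂ + 2 * b₂)]

end Vale.Agent.P264Z.S
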