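import Vale.Agent.P264Z.Iface

/-!
# P264, block S: interfaces for the existence of the shrinker

`Y = 1 - x σ`, `S = Mop 10 σ`, `2 S' = K - 1/Y`, `K = 1/c`.
-/

open scoped ContDiff
open Set Metric

noncomputable section

namespace Vale.Agent.P264Z.S

/-- `ρ y = 1/y` for `y ≥ 1/10` -/
def Rho (ρ : ℝ → ℝ) : Prop := ∀ y : ℝ, 1 / 10 ≤ y → ρ y = 1 / y

/-- a smooth solution on the line of the modified initial value problem -/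
structure IVP (ρ : ℝ → ℝ) (a K : ℝ) (σ : ℝ → ℝ) : Prop where
  smooth : ContDiff ℝ ∞ σ
  init : Mop 10 σ 0 = a
  ode : ∀ x, HasDerivAt (Mop 10 σ) ((K - ρ (1 - x * σ x)) / 2) x

/-- joint continuity of the Cauchy data of a family -/
structure Cts (σ : (Fin 2 → ℝ) → ℝ → ℝ) : Prop where
  c0 : ContinuousOn (fun q : (Fin 2 → ℝ) × ℝ => σ q.1 q.2) (closedBall 0 1 ×ˢ Ioi 0)
  c1 : ContinuousOn (fun q : (Fin 2 → ℝ) × ℝ => deriv (σ q.1) q.2) (closedBall 0 1 ×ˢ Ioi 0)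
  c2 : ContinuousOn (fun q : (Fin 2 → ℝ) × ℝ => Mop 10 (σ q.1) q.2) (closedBall 0 1 ×ˢ Ioi 0)

/-- block S1 -/
def Family : Prop :=
  ∃ ρ : ℝ → ℝ, Rho ρ ∧ ∀ a K : (Fin 2 → ℝ) → ℝ, ContinuousOn a (closedBall 0 1) →
    ContinuousOn K (closedBall 0 1) →
    ∃ σ : (Fin 2 → ℝ) → ℝ → ℝ, (∀ p, ‖p‖ ≤ 1 → IVP ρ (a p) (K p) (σ p)) ∧ Cts σ

/-- `Y` -/
def Y0 (σ : ℝ → ℝ) (x : ℝ) : ℝ := 1 - x * σ x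
/-- `D Y`, `D = x d/dx` -/
def Y1 (σ : ℝ → ℝ) (x : ℝ) : ℝ := -x * σ x - x ^ 2 * deriv σ x
/-- `D² Y` -/
def Y2 (σ : ℝ → ℝ) (x : ℝ) : ℝ := 109 * x * σ x + 19 * x ^ 2 * deriv σ x - x * Mop 10 σ x

/-- approximate cone slope -/
def cc0 : ℝ := 71393755659 / 100000000000
def cc1 (c : ℝ) : ℝ := -180 * c ^ 2 * (1 - c)
def cc2 (c : ℝ) : ℝ := -2 * c * cc1 c * (90 * (1 - c) - 168 * c)
def cc3 : ℝ := -244776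
def cc4 : ℝ := 30105500
def cc5 : ℝ := 4426200000

/-- the far field approximation `y_f` as a polynomial in `z = x⁻²` -/
def yf0 (c z : ℝ) : ℝ := c + cc1 c * z + cc2 c * z ^ 2 + cc3 * z ^ 3 + cc4 * z ^ 4 + cc5 * z ^ 5
/-- `D y_f` -/
def yf1 (c z : ℝ) : ℝ :=
  -2 * cc1 c * z - 4 * cc2 c * z ^ 2 - 6 * cc3 * z ^ 3 - 8 * cc4 * z ^ 4 - 10 * cc5 * z ^ 5
/-- `D² y_f` -/
def yf2 (c z : ℝ) : ℝ :=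
  4 * cc1 c * z + 16 * cc2 c * z ^ 2 + 36 * cc3 * z ^ 3 + 64 * cc4 * z ^ 4 + 100 * cc5 * z ^ 5
/-- `D³ y_f` -/
def yf3 (c z : ℝ) : ℝ :=
  -8 * cc1 c * z - 64 * cc2 c * z ^ 2 - 216 * cc3 * z ^ 3 - 512 * cc4 * z ^ 4 - 1000 * cc5 * z ^ 5

/-- the residual `2 c y_f R_f`, `R_f = T y_f + 90 - (x²/2)(1/y_f - 1/c)`,
`T = D³ + 18 D² + 71 D - 90` -/
def resf (c z : ℝ) : ℝ :=
  2 * c * yf0 c z * (yf3 c z + 18 * yf2 c z + 71 * yf1 c z - 90 * yf0 c z + 90) +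
    (cc1 c + cc2 c * z + cc3 * z ^ 2 + cc4 * z ^ 3 + cc5 * z ^ 4)

/-- numerical facts on the far field approximation -/
def FarNum : Prop := ∀ c z : ℝ, |c - cc0| ≤ 1 / 10 ^ 6 → 0 ≤ z → z ≤ 1 / 4096 →
  |resf c z| ≤ 50 * z ^ 2 ∧ 707 / 1000 ≤ yf0 c z ∧ yf0 c z ≤ 714 / 1000

def h0 (σ : ℝ → ℝ) (c w : ℝ) : ℝ := Y0 σ (w ^ 3) - yf0 c (1 / w ^ 6)
def h1 (σ : ℝ → ℝ) (c w : ℝ) : ℝ := Y1 σ (w ^ 3) - yf1 c (1 / w ^ 6)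
def h2 (σ : ℝ → ℝ) (c w : ℝ) : ℝ := Y2 σ (w ^ 3) - yf2 c (1 / w ^ 6)
def k0 (σ : ℝ → ℝ) (c w : ℝ) : ℝ := w ^ 18 * h0 σ c w
def k1 (σ : ℝ → ℝ) (c w : ℝ) : ℝ := w ^ 16 * (h1 σ c w + 6 * h0 σ c w)
def k2 (σ : ℝ → ℝ) (c w : ℝ) : ℝ := w ^ 14 * (h2 σ c w + 12 * h1 σ c w + 36 * h0 σ c w)

/-- block S3a: the far field trap (Wazewski) -/
def Trap : Prop :=
  ∀ (ρ : ℝ → ℝ) (a c : (Fin 2 → ℝ) → ℝ) (σ : (Fin 2 → ℝ) → ℝ → ℝ), Rho ρ →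
    ContinuousOn c (closedBall 0 1) → (∀ p, ‖p‖ ≤ 1 → |c p - cc0| ≤ 1 / 10 ^ 6) →
    (∀ p, ‖p‖ ≤ 1 → IVP ρ (a p) (1 / c p) (σ p)) → Cts σ →
    (∀ p, ‖p‖ ≤ 1 → |k0 (σ p) (c p) 4 + k1 (σ p) (c p) 4 - 10000 * p 0| ≤ 1000 ∧
      |k1 (σ p) (c p) 4 + k2 (σ p) (c p) 4 - 10000 * p 1| ≤ 1000 ∧
      |k0 (σ p) (c p) 4 - k1 (σ p) (c p) 4 + k2 (σ p) (c p) 4| ≤ 10000) →
    ∃ p, ‖p‖ ≤ 1 ∧ ∀ w, 4 ≤ w →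
      |k0 (σ p) (c p) w| ≤ 9000 ∧ |k1 (σ p) (c p) w| ≤ 9000 ∧ |k2 (σ p) (c p) w| ≤ 9000

/-- block S3b: a trapped solution is a shrinker -/
def Bounds : Prop :=
  ∀ (ρ : ℝ → ℝ) (a c : ℝ) (σ : ℝ → ℝ), Rho ρ → |c - cc0| ≤ 1 / 10 ^ 6 → IVP ρ a (1 / c) σ →
    (∀ x ∈ Icc (0 : ℝ) 64, 1 / 9 ≤ 1 - x * σ x) →
    (∀ w, 4 ≤ w → |k0 σ c w| ≤ 9000 ∧ |k1 σ c w| ≤ 9000 ∧ |k2 σ c w| ≤ 9000) →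
    Shrinker 10 σ

end Vale.Agent.P264Z.S
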