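import Vale.Agent.P264Z.S.YOde
import Mathlib.Analysis.Calculus.ParametricIntervalIntegral
import Mathlib.Analysis.Calculus.MeanValue
import Mathlib.MeasureTheory.Integral.IntervalIntegral.FundThmCalculus

/-!
# P264, block S1: the cut off reciprocal and the averaging operator
-/

open scoped ContDiff
open Set Filter MeasureTheory Topology

noncomputable section

namespace Vale.Agent.P264Z.S

/-- a smooth function which is the identity above `1/10` and bounded below by `1/20` -/
def ell (y : ℝ) : ℝ := 1 / 20 + (y - 1 / 20) * Real.smoothTransition (20 * y - 1)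

theorem ell_smooth : ContDiff ℝ ∞ ell := by
  unfold ell
  exact contDiff_const.add ((contDiff_id.sub contDiff_const).mul
    (Real.smoothTransition.contDiff.comp ((contDiff_const.mul contDiff_id).sub contDiff_const)))

theorem ell_of_le {y : ℝ} (h : y ≤ 1 / 20) : ell y = 1 / 20 := by
  unfold ell
  rw [Real.smoothTransition.zero_of_nonpos (by linarith)]
  ring

theorem ell_of_ge {y : ℝ} (h : 1 / 10 ≤ y) : ell y = y := by
  unfold ell
  rw [Real.smoothTransition.one_of_one_le (by linarith)]
  ring

theorem ell_ge (y : ℝ) : 1 / 20 ≤ ell y := by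
  rcases le_total y (1 / 20) with h | h
  · exact (ell_of_le h).ge
  · unfold ell
    have := mul_nonneg (sub_nonneg.2 h) (Real.smoothTransition.nonneg (20 * y - 1))
    linarith

theorem ell_lip : ∃ L : ℝ, 0 ≤ L ∧ ∀ y z, |ell y - ell z| ≤ L * |y - z| := by
  have hc : Continuous (deriv ell) := (contDiff_deriv ell_smooth).continuous
  obtain ⟨C, hC⟩ := (isCompact_Icc : IsCompact (Icc (0 : ℝ) 1)).exists_bound_of_continuousOn
    hc.continuousOn
  have hb : ∀ y, ‖deriv ell y‖ ≤ max C 1 := by
    intro y
    rcases lt_or_ge y 0 with h | h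
    · have : ell =ᶠ[𝓝 y] fun _ => (1 / 20 : ℝ) := by
        filter_upwards [Iio_mem_nhds h] with z hz
        exact ell_of_le (by have : z < 0 := hz; linarith)
      rw [this.deriv_eq]
      simp
    · rcases le_or_gt y 1 with h1 | h1
      · exact (hC y ⟨h, h1⟩).trans (le_max_left _ _)
      · have : ell =ᶠ[𝓝 y] fun z => z := by
          filter_upwards [Ioi_mem_nhds h1] with z hz
          exact ell_of_ge (by have : 1 < z := hz; linarith)
        rw [this.deriv_eq]
        simp
  refine ⟨max C 1, zero_le_one.trans (le_max_right _ _), fun y z => ?_⟩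
  have := convex_univ.norm_image_sub_le_of_norm_deriv_le (f := ell) (C := max C 1)
    (fun x _ => (ell_smooth.differentiable (by simp)) x) (fun x _ => hb x) (mem_univ z) (mem_univ y)
  simpa [Real.norm_eq_abs] using this

theorem exists_rho : ∃ ρ : ℝ → ℝ, Rho ρ ∧ ContDiff ℝ ∞ ρ ∧ (∀ y, |ρ y| ≤ 20) ∧
    ∃ L : ℝ, 0 ≤ L ∧ ∀ y z, |ρ y - ρ z| ≤ L * |y - z| := by
  have hp : ∀ y, 0 < ell y := fun y => lt_of_lt_of_le (by norm_num) (ell_ge y)
  refine ⟨fun y => 1 / ell y, fun y hy => by simp only [ell_of_ge hy], ?_, ?_, ?_⟩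
  · exact contDiff_const.div ell_smooth fun y => (hp y).ne'
  · intro y
    rw [abs_of_pos (one_div_pos.2 (hp y)), div_le_iff₀ (hp y)]
    have := ell_ge y
    linarith
  · obtain ⟨L, hL, h⟩ := ell_lip
    refine ⟨400 * L, by positivity, fun y z => ?_⟩
    have hy := ell_ge y
    have hz := ell_ge z
    have h1 : 1 / ell y - 1 / ell z = (ell z - ell y) / (ell y * ell z) := by
      have := (hp y).ne'
      have := (hp z).ne'
      field_simp
    have h2 : 1 / 400 ≤ ell y * ell z := by nlinarith
    rw [h1, abs_div, abs_of_pos (mul_pos (hp y) (hp z)), div_le_iff₀ (mul_pos (hp y) (hp z)),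
      abs_sub_comm]
    have h3 := h y z
    have h4 : 0 ≤ L * |y - z| := by positivity
    nlinarith

/-- the averaging operator -/
def Av (w S : ℝ → ℝ) (x : ℝ) : ℝ := ∫ t in (0 : ℝ)..1, w t * S (x * t)

theorem Av_cont {w S : ℝ → ℝ} (hw : Continuous w) (hS : Continuous S) : Continuous (Av w S) :=
  intervalIntegral.continuous_parametric_intervalIntegral_of_continuous'
    (f := fun x t => w t * S (x * t))
    ((hw.comp continuous_snd).mul (hS.comp (continuous_fst.mul continuous_snd))) 0 1

theorem Av_hasDerivAt {w S S' : ℝ → ℝ} (hw : Continuous w) (hS : ∀ x, HasDerivAt S (S' x) x)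
    (hS' : Continuous S') (x : ℝ) :
    HasDerivAt (Av w S) (Av (fun t => t * w t) S' x) x := by
  have hSc : Continuous S := continuous_iff_continuousAt.2 fun x => (hS x).continuousAt
  have hF' : Continuous fun q : ℝ × ℝ => q.2 * w q.2 * S' (q.1 * q.2) :=
    (continuous_snd.mul (hw.comp continuous_snd)).mul (hS'.comp (continuous_fst.mul continuous_snd))
  obtain ⟨C, hC⟩ := (isCompact_Icc.prod isCompact_Icc :
    IsCompact (Icc (x - 1) (x + 1) ×ˢ Icc (0 : ℝ) 1)).exists_bound_of_continuousOn hF'.continuousOn
  refine (intervalIntegral.hasDerivAt_integral_of_dominated_loc_of_deriv_le (μ := volume)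
    (F := fun s t => w t * S (s * t)) (F' := fun s t => t * w t * S' (s * t))
    (s := Icc (x - 1) (x + 1))
    (bound := fun _ => C) (Icc_mem_nhds (by linarith) (by linarith)) ?_ ?_ ?_ ?_ ?_ ?_).2
  · exact Eventually.of_forall fun s =>
      (hw.mul (hSc.comp (continuous_const.mul continuous_id))).aestronglyMeasurable
  · exact (hw.mul (hSc.comp (continuous_const.mul continuous_id))).intervalIntegrable _ _
  · exact ((continuous_id.mul hw).mul
      (hS'.comp (continuous_const.mul continuous_id))).aestronglyMeasurable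
  · refine Eventually.of_forall fun t ht s hs => ?_
    rw [uIoc_of_le zero_le_one] at ht
    exact hC (s, t) ⟨hs, ht.1.le, ht.2⟩
  · exact intervalIntegrable_const
  · refine Eventually.of_forall fun t _ s _ => ?_
    have h1 : HasDerivAt (fun s => w t * S (s * t)) _ s :=
      ((hS (s * t)).comp s ((hasDerivAt_id s).mul_const t)).const_mul (w t)
    refine h1.congr_deriv ?_
    ring

theorem Av_contDiff (n : ℕ) : ∀ {w S : ℝ → ℝ}, Continuous w → ContDiff ℝ n S →
    ContDiff ℝ n (Av w S) := by
  induction n with
  | zero =>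
    intro w S hw hS
    exact contDiff_zero.2 (Av_cont hw hS.continuous)
  | succ n ih =>
    intro w S hw hS
    rw [Nat.cast_succ, contDiff_succ_iff_deriv] at hS ⊢
    have hd : ∀ x, HasDerivAt (Av w S) (Av (fun t => t * w t) (deriv S) x) x :=
      Av_hasDerivAt hw (fun x => (hS.1 x).hasDerivAt) hS.2.2.continuous
    refine ⟨fun x => (hd x).differentiableAt, by simp, ?_⟩
    have : deriv (Av w S) = Av (fun t => t * w t) (deriv S) := funext fun x => (hd x).deriv
    rw [this]
    exact ih (continuous_id.mul hw) hS.2.2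

theorem Av_smooth {w S : ℝ → ℝ} (hw : Continuous w) (hS : ContDiff ℝ ∞ S) :
    ContDiff ℝ ∞ (Av w S) :=
  contDiff_infty.2 fun n => Av_contDiff n hw (contDiff_infty.1 hS n)

theorem Av_deriv {w S : ℝ → ℝ} (hw : Continuous w) (hS : ContDiff ℝ ∞ S) :
    deriv (Av w S) = Av (fun t => t * w t) (deriv S) :=
  funext fun x => (Av_hasDerivAt hw (hasDerivAt_self hS) (contDiff_deriv hS).continuous x).deriv

/-- the weight of the right inverse of `Mop 10` -/
def w9 (t : ℝ) : ℝ := (1 - t) * t ^ 9

theorem w9_cont : Continuous w9 := by unfold w9; fun_prop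

theorem Mop_Av {S : ℝ → ℝ} (hS : ContDiff ℝ ∞ S) (x : ℝ) : Mop 10 (Av w9 S) x = S x := by
  have h1 := contDiff_deriv hS
  have h2 := contDiff_deriv h1
  have hw1 : Continuous fun t => t * w9 t := continuous_id.mul w9_cont
  rw [Mop10, Av_deriv w9_cont hS, Av_deriv hw1 h1]
  have c0 : Continuous fun t => S (x * t) := hS.continuous.comp (continuous_const.mul continuous_id)
  have c1 : Continuous fun t => deriv S (x * t) :=
    h1.continuous.comp (continuous_const.mul continuous_id)
  have c2 : Continuous fun t => deriv (deriv S) (x * t) :=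
    h2.continuous.comp (continuous_const.mul continuous_id)
  have hg : ∀ t ∈ uIcc (0 : ℝ) 1, HasDerivAt
      (fun t => (t ^ 11 - t ^ 12) * (x * deriv S (x * t)) + (11 * t ^ 10 - 10 * t ^ 11) * S (x * t))
      (x ^ 2 * (t * (t * w9 t) * deriv (deriv S) (x * t)) +
        22 * x * (t * w9 t * deriv S (x * t)) + 110 * (w9 t * S (x * t))) t := by
    intro t _
    have e : HasDerivAt (fun t => x * t) x t := by simpa using (hasDerivAt_id t).const_mul x
    have a0 := (hasDerivAt_self hS (x * t)).comp t e
    have a1 := (hasDerivAt_self h1 (x * t)).comp t e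
    have b : HasDerivAt (fun t => (t ^ 11 - t ^ 12) * (x * deriv S (x * t)) +
        (11 * t ^ 10 - 10 * t ^ 11) * S (x * t)) _ t :=
      (((hasDerivAt_pow 11 t).sub (hasDerivAt_pow 12 t)).mul (a1.const_mul x)).add
        ((((hasDerivAt_pow 10 t).const_mul 11).sub ((hasDerivAt_pow 11 t).const_mul 10)).mul a0)
    refine b.congr_deriv ?_
    simp only [w9, Function.comp, Pi.sub_apply]
    push_cast
    ring
  have i2 : IntervalIntegrable (fun t => t * (t * w9 t) * deriv (deriv S) (x * t)) volume 0 1 :=
    ((continuous_id.mul hw1).mul c2).intervalIntegrable _ _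
  have i1 : IntervalIntegrable (fun t => t * w9 t * deriv S (x * t)) volume 0 1 :=
    (hw1.mul c1).intervalIntegrable _ _
  have i0 : IntervalIntegrable (fun t => w9 t * S (x * t)) volume 0 1 :=
    (w9_cont.mul c0).intervalIntegrable _ _
  have := intervalIntegral.integral_eq_sub_of_hasDerivAt hg
    (((i2.const_mul _).add (i1.const_mul _)).add (i0.const_mul _))
  rw [intervalIntegral.integral_add ((i2.const_mul _).add (i1.const_mul _)) (i0.const_mul _),
    intervalIntegral.integral_add (i2.const_mul _) (i1.const_mul _),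
    intervalIntegral.integral_const_mul, intervalIntegral.integral_const_mul,
    intervalIntegral.integral_const_mul] at this
  unfold Av
  rw [this]
  simp
  ring

theorem deriv_Av {S : ℝ → ℝ} (hS : ContDiff ℝ ∞ S) (x : ℝ) :
    x * deriv (Av w9 S) x + 11 * Av w9 S x = Av (fun t => t ^ 9) S x := by
  have h1 := contDiff_deriv hS
  have hw1 : Continuous fun t => t * w9 t := continuous_id.mul w9_cont
  rw [Av_deriv w9_cont hS]
  have c0 : Continuous fun t => S (x * t) := hS.continuous.comp (continuous_const.mul continuous_id)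
  have c1 : Continuous fun t => deriv S (x * t) :=
    h1.continuous.comp (continuous_const.mul continuous_id)
  have hg : ∀ t ∈ uIcc (0 : ℝ) 1, HasDerivAt
      (fun t => (t ^ 10 - t ^ 11) * S (x * t))
      (x * (t * w9 t * deriv S (x * t)) + 11 * (w9 t * S (x * t)) - t ^ 9 * S (x * t)) t := by
    intro t _
    have e : HasDerivAt (fun t => x * t) x t := by simpa using (hasDerivAt_id t).const_mul x
    have a0 := (hasDerivAt_self hS (x * t)).comp t e
    have b : HasDerivAt (fun t => (t ^ 10 - t ^ 11) * S (x * t)) _ t :=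
      ((hasDerivAt_pow 10 t).sub (hasDerivAt_pow 11 t)).mul a0
    refine b.congr_deriv ?_
    simp only [w9, Pi.sub_apply]
    push_cast
    ring
  have i1 : IntervalIntegrable (fun t => t * w9 t * deriv S (x * t)) volume 0 1 :=
    (hw1.mul c1).intervalIntegrable _ _
  have i0 : IntervalIntegrable (fun t => w9 t * S (x * t)) volume 0 1 :=
    (w9_cont.mul c0).intervalIntegrable _ _
  have i9 : IntervalIntegrable (fun t => t ^ 9 * S (x * t)) volume 0 1 :=
    ((continuous_pow 9).mul c0).intervalIntegrable _ _
  have := intervalIntegral.integral_eq_sub_of_hasDerivAt hg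
    (((i1.const_mul _).add (i0.const_mul _)).sub i9)
  rw [intervalIntegral.integral_sub ((i1.const_mul _).add (i0.const_mul _)) i9,
    intervalIntegral.integral_add (i1.const_mul _) (i0.const_mul _),
    intervalIntegral.integral_const_mul, intervalIntegral.integral_const_mul] at this
  unfold Av
  simp at this
  linarith

end Vale.Agent.P264Z.S
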