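import Vale.Agent.P264Z.S.Check

/-!
# P264, block S: the passage from one piece to the next
-/

open Set

namespace Vale.Agent.P264Z.S

/-- rational triples -/
structure V3 where
  a : ℚ
  b : ℚ
  c : ℚ

namespace V3

def dot (u v : V3) : ℚ := u.a * v.a + u.b * v.b + u.c * v.c
def cross (u v : V3) : V3 := ⟨u.b * v.c - u.c * v.b, u.c * v.a - u.a * v.c, u.a * v.b - u.b * v.a⟩
def dv (u : V3) (d : ℚ) : V3 := ⟨u.a / d, u.b / d, u.c / d⟩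
def adot (u v : V3) : ℚ := |u.a| * v.a + |u.b| * v.b + |u.c| * v.c
noncomputable def dR (u : V3) (x y z : ℝ) : ℝ := u.a * x + u.b * y + u.c * z

theorem cramer (q1 q2 q3 : V3) (hd : q1.dot (q2.cross q3) ≠ 0) (x y z : ℝ) :
    x = ((q2.cross q3).dv (q1.dot (q2.cross q3))).dR x y z * q1.a +
      ((q3.cross q1).dv (q1.dot (q2.cross q3))).dR x y z * q2.a +
      ((q1.cross q2).dv (q1.dot (q2.cross q3))).dR x y z * q3.a ∧
    y = ((q2.cross q3).dv (q1.dot (q2.cross q3))).dR x y z * q1.b +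
      ((q3.cross q1).dv (q1.dot (q2.cross q3))).dR x y z * q2.b +
      ((q1.cross q2).dv (q1.dot (q2.cross q3))).dR x y z * q3.b ∧
    z = ((q2.cross q3).dv (q1.dot (q2.cross q3))).dR x y z * q1.c +
      ((q3.cross q1).dv (q1.dot (q2.cross q3))).dR x y z * q2.c +
      ((q1.cross q2).dv (q1.dot (q2.cross q3))).dR x y z * q3.c := by
  have hd' : ((q1.dot (q2.cross q3) : ℚ) : ℝ) ≠ 0 := by exact_mod_cast hd
  simp only [dR, dv, Rat.cast_div]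
  refine ⟨?_, ?_, ?_⟩ <;>
  · field_simp
    simp only [dot, cross]
    push_cast
    ring

/-- the bound for one row -/
def rowB (I p1 p2 p3 D : V3) (C1 C2 C3 g : ℚ) : ℚ :=
  |I.dot p1 - g| * C1 + |I.dot p2| * C2 + |I.dot p3| * C3 + I.adot D

theorem row_bd (I p1 p2 p3 D : V3) (C1 C2 C3 g : ℚ) {c1 c2 c3 x y z : ℝ} (h1 : |c1| ≤ C1)
    (h2 : |c2| ≤ C2) (h3 : |c3| ≤ C3) (hx : |x - (c1 * p1.a + c2 * p2.a + c3 * p3.a)| ≤ D.a)
    (hy : |y - (c1 * p1.b + c2 * p2.b + c3 * p3.b)| ≤ D.b)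
    (hz : |z - (c1 * p1.c + c2 * p2.c + c3 * p3.c)| ≤ D.c) :
    |I.dR x y z - g * c1| ≤ rowB I p1 p2 p3 D C1 C2 C3 g := by
  have H := abs_add_le' (abs_add_le' (abs_add_le'
    (abs_mul_le' (le_refl |((I.dot p1 - g : ℚ) : ℝ)|) h1)
    (abs_mul_le' (le_refl |((I.dot p2 : ℚ) : ℝ)|) h2))
    (abs_mul_le' (le_refl |((I.dot p3 : ℚ) : ℝ)|) h3))
    (abs_add_le' (abs_add_le' (abs_mul_le' (le_refl |(I.a : ℝ)|) hx)
      (abs_mul_le' (le_refl |(I.b : ℝ)|) hy)) (abs_mul_le' (le_refl |(I.c : ℝ)|) hz))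
  refine le_trans (le_of_eq (congrArg abs ?_)) (H.trans (le_of_eq ?_))
  · simp only [dR, dot]
    push_cast
    ring
  · simp only [rowB, adot]
    push_cast
    ring

end V3

namespace Pc

/-- the Cauchy data of a polynomial -/
def tp (P : Pc) (l : List ℚ) (x : ℚ) : V3 :=
  ⟨pq l (x - P.xc), pq (pder l) (x - P.xc), pq (pM P.xc l) (x - P.xc)⟩

theorem cmb_eq (P : Pc) (c1 c2 c3 k : ℝ) (x : ℚ) :
    P.cmb id c1 c2 c3 k x = (P.tp P.s x).a + c1 * (P.tp P.p1 x).a + c2 * (P.tp P.p2 x).a +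
      c3 * (P.tp P.p3 x).a + k * (P.tp P.p4 x).a ∧
    P.cmb pder c1 c2 c3 k x = (P.tp P.s x).b + c1 * (P.tp P.p1 x).b + c2 * (P.tp P.p2 x).b +
      c3 * (P.tp P.p3 x).b + k * (P.tp P.p4 x).b ∧
    P.cmb (pM P.xc) c1 c2 c3 k x = (P.tp P.s x).c + c1 * (P.tp P.p1 x).c + c2 * (P.tp P.p2 x).c +
      c3 * (P.tp P.p3 x).c + k * (P.tp P.p4 x).c := by
  simp only [cmb, tp, id, ← Rat.cast_sub, pe_cast, and_self]

/-- the jump bound between two pieces -/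
def jump (P N : Pc) : V3 :=
  ⟨P.err0 + |(P.tp P.s P.xr).a - (N.tp N.s P.xr).a| + BB * |(P.tp P.p4 P.xr).a - (N.tp N.p4 P.xr).a|,
   P.err1 + |(P.tp P.s P.xr).b - (N.tp N.s P.xr).b| + BB * |(P.tp P.p4 P.xr).b - (N.tp N.p4 P.xr).b|,
   P.m + |(P.tp P.s P.xr).c - (N.tp N.s P.xr).c| + BB * |(P.tp P.p4 P.xr).c - (N.tp N.p4 P.xr).c|⟩

def det (N : Pc) : ℚ := (N.tp N.p1 N.xl).dot ((N.tp N.p2 N.xl).cross (N.tp N.p3 N.xl))
def i1 (N : Pc) : V3 := ((N.tp N.p2 N.xl).cross (N.tp N.p3 N.xl)).dv N.det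
def i2 (N : Pc) : V3 := ((N.tp N.p3 N.xl).cross (N.tp N.p1 N.xl)).dv N.det
def i3 (N : Pc) : V3 := ((N.tp N.p1 N.xl).cross (N.tp N.p2 N.xl)).dv N.det
def row (P N : Pc) (I : V3) (g : ℚ) : ℚ :=
  V3.rowB I (P.tp P.p1 P.xr) (P.tp P.p2 P.xr) (P.tp P.p3 P.xr) (P.jump N) (AA + P.e1) P.e2 P.e3 g

/-- the check for the passage to the next piece -/
def tr (P N : Pc) : Bool :=
  decide (N.xl = P.xr) && decide (N.det ≠ 0) && decide (0 ≤ N.z0) &&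
    decide (P.e1 + P.row N N.i1 1 ≤ N.e1) && decide (P.row N N.i2 0 ≤ N.e2) &&
    decide (P.row N N.i3 0 ≤ N.e3)

/-- the check for the first piece -/
def ini (P : Pc) : Bool :=
  decide (P.xl = 0) && decide (0 ≤ P.e1) && decide (0 ≤ P.e2) && decide (0 ≤ P.e3) &&
    decide (|a0 - (P.tp P.s 0).c| + AA * |1 - (P.tp P.p1 0).c| + BB * |(P.tp P.p4 0).c| ≤ P.z0)

/-- the invariant -/
def Good (P : Pc) (σ : ℝ → ℝ) (α k : ℝ) : Prop :=
  P.Inv σ α k ∧ ∀ x ∈ Icc (0 : ℝ) P.xl, 1 / 9 ≤ 1 - x * σ x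

end Pc

theorem jump_bd {x s s' u v v' k E : ℝ} (h : |x - (s + u + k * v)| ≤ E) (hk : |k| ≤ BB) :
    |x - s' - k * v' - u| ≤ E + |s - s'| + BB * |v - v'| := by
  have H := abs_add_le' (abs_add_le' h (le_refl |s - s'|)) (abs_mul_le' hk (le_refl |v - v'|))
  refine le_trans (le_of_eq (congrArg abs ?_)) H
  ring

theorem trans {σ : ℝ → ℝ} {α k : ℝ} (hα : |α| ≤ AA) (hk : |k| ≤ BB) (P N : Pc)
    (ht : P.tr N = true) (hO : P.Out σ α k) : N.Inv σ α k := by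
  simp only [Pc.tr, Bool.and_eq_true, decide_eq_true_eq] at ht
  obtain ⟨⟨⟨⟨⟨q1, q2⟩, q3⟩, q4⟩, q5⟩, q6⟩ := ht
  obtain ⟨c1, c2, c3, hB, h0, h1, h2⟩ := hO
  have hc1 : |c1| ≤ (AA + P.e1 : ℚ) := by
    have := abs_add_le' hα hB.1
    rw [add_sub_cancel] at this
    exact_mod_cast this
  obtain ⟨e0, e1, e2⟩ := P.cmb_eq c1 c2 c3 k P.xr
  rw [e0] at h0
  rw [e1] at h1
  rw [e2] at h2
  set x := σ P.xr - (N.tp N.s P.xr).a - k * (N.tp N.p4 P.xr).a with hx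
  set y := deriv σ P.xr - (N.tp N.s P.xr).b - k * (N.tp N.p4 P.xr).b with hy
  set z := Mop 10 σ P.xr - (N.tp N.s P.xr).c - k * (N.tp N.p4 P.xr).c with hz
  have bx : |x - (c1 * (P.tp P.p1 P.xr).a + c2 * (P.tp P.p2 P.xr).a + c3 * (P.tp P.p3 P.xr).a)| ≤
      (P.jump N).a := by
    simp only [Pc.jump]
    push_cast
    exact jump_bd (by convert h0 using 3; ring) hk
  have by' : |y - (c1 * (P.tp P.p1 P.xr).b + c2 * (P.tp P.p2 P.xr).b + c3 * (P.tp P.p3 P.xr).b)| ≤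
      (P.jump N).b := by
    simp only [Pc.jump]
    push_cast
    exact jump_bd (by convert h1 using 3; ring) hk
  have bz : |z - (c1 * (P.tp P.p1 P.xr).c + c2 * (P.tp P.p2 P.xr).c + c3 * (P.tp P.p3 P.xr).c)| ≤
      (P.jump N).c := by
    simp only [Pc.jump]
    push_cast
    exact jump_bd (by convert h2 using 3; ring) hk
  have R : ∀ (I : V3) (g : ℚ), |I.dR x y z - g * c1| ≤ P.row N I g := fun I g =>
    V3.row_bd I _ _ _ _ _ _ _ g hc1 hB.2.1 hB.2.2 bx by' bz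
  obtain ⟨f0, f1, f2⟩ := V3.cramer (N.tp N.p1 N.xl) (N.tp N.p2 N.xl) (N.tp N.p3 N.xl) q2 x y z
  obtain ⟨g0, g1, g2⟩ := N.cmb_eq (N.i1.dR x y z) (N.i2.dR x y z) (N.i3.dR x y z) k N.xl
  refine ⟨N.i1.dR x y z, N.i2.dR x y z, N.i3.dR x y z, ⟨?_, ?_, ?_⟩, Or.inr ⟨?_, ?_⟩, ?_⟩
  · have H := abs_add_le' hB.1 (R N.i1 1)
    have q4' := (Rat.cast_le (K := ℝ)).2 q4
    push_cast at q4' H
    refine le_trans (le_of_eq (congrArg abs ?_)) (H.trans q4')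
    ring
  · have H := R N.i2 0
    rw [Rat.cast_zero, zero_mul, sub_zero] at H
    exact H.trans (by exact_mod_cast q5)
  · have H := R N.i3 0
    rw [Rat.cast_zero, zero_mul, sub_zero] at H
    exact H.trans (by exact_mod_cast q6)
  · rw [g0]
    simp only [Pc.i1, Pc.i2, Pc.i3, Pc.det]
    rw [← q1] at hx
    linarith
  · rw [g1]
    simp only [Pc.i1, Pc.i2, Pc.i3, Pc.det]
    rw [← q1] at hy
    linarith
  · have : Mop 10 σ N.xl - N.cmb (pM N.xc) (N.i1.dR x y z) (N.i2.dR x y z) (N.i3.dR x y z) k N.xl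
        = 0 := by
      rw [g2]
      simp only [Pc.i1, Pc.i2, Pc.i3, Pc.det]
      rw [← q1] at hz
      linarith
    rw [this, abs_zero]
    exact_mod_cast q3

section

variable {ρ σ : ℝ → ℝ} {α k : ℝ}

theorem first (hσ : IVP ρ (a0 + α) (K0 + k) σ) (hα : |α| ≤ AA) (hk : |k| ≤ BB) (P : Pc)
    (hi : P.ini = true) : P.Good σ α k := by
  simp only [Pc.ini, Bool.and_eq_true, decide_eq_true_eq] at hi
  obtain ⟨⟨⟨⟨q1, q2⟩, q3⟩, q4⟩, q5⟩ := hi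
  refine ⟨⟨α, 0, 0, ⟨?_, ?_, ?_⟩, Or.inl (by simp [q1]), ?_⟩, fun x hx => ?_⟩
  · rw [sub_self, abs_zero]; exact_mod_cast q2
  · rw [abs_zero]; exact_mod_cast q3
  · rw [abs_zero]; exact_mod_cast q4
  · rw [(P.cmb_eq α 0 0 k P.xl).2.2, q1, Rat.cast_zero, hσ.init]
    have q5' := (Rat.cast_le (K := ℝ)).2 q5
    push_cast at q5'
    have H := abs_add_le' (abs_add_le' (le_refl |(a0 : ℝ) - (P.tp P.s 0).c|)
      (abs_mul_le' hα (le_refl |(1 : ℝ) - (P.tp P.p1 0).c|)))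
      (abs_mul_le' hk (le_of_eq (abs_neg ((P.tp P.p4 0).c : ℝ))))
    refine le_trans (le_of_eq (congrArg abs ?_)) (H.trans q5')
    ring
  · rw [q1, Rat.cast_zero] at hx
    rw [le_antisymm hx.2 hx.1]
    norm_num

theorem last {a : ℝ} (hρ : Rho ρ) (hσ : IVP ρ a (K0 + k) σ) (hα : |α| ≤ AA) (hk : |k| ≤ BB)
    (P : Pc) (hc : P.chk = true) (hG : P.Good σ α k) :
    P.Out σ α k ∧ ∀ x ∈ Icc (0 : ℝ) P.xr, 1 / 9 ≤ 1 - x * σ x := by
  obtain ⟨h1, h2⟩ := step hρ hσ hα hk P hc hG.1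
  refine ⟨h1, fun x hx => ?_⟩
  rcases le_total x P.xl with h | h
  · exact hG.2 x ⟨hx.1, h⟩
  · exact h2 x ⟨h, hx.2⟩

theorem next {a : ℝ} (hρ : Rho ρ) (hσ : IVP ρ a (K0 + k) σ) (hα : |α| ≤ AA) (hk : |k| ≤ BB)
    {P N : Pc} (hc : P.chk = true) (ht : P.tr N = true) (hG : P.Good σ α k) : N.Good σ α k := by
  obtain ⟨h1, h2⟩ := last hρ hσ hα hk P hc hG
  refine ⟨trans hα hk P N ht h1, ?_⟩
  simp only [Pc.tr, Bool.and_eq_true, decide_eq_true_eq] at ht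
  rw [ht.1.1.1.1.1]
  exact h2

end

end Vale.Agent.P264Z.S
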