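import Vale.Agent.P264Z.S.Defs

/-!
# P264, block S: the third order equation for `Y = 1 - x σ` in the variable `D = x d/dx`
-/

open scoped ContDiff
open Set

noncomputable section

namespace Vale.Agent.P264Z.S

/-- `D³ Y`, given by the equation -/
def Y3 (ρ : ℝ → ℝ) (K : ℝ) (σ : ℝ → ℝ) (x : ℝ) : ℝ :=
  -18 * Y2 σ x - 71 * Y1 σ x + 90 * (Y0 σ x - 1) + x ^ 2 / 2 * (ρ (Y0 σ x) - K)

theorem hasDerivAt_self {σ : ℝ → ℝ} (h : ContDiff ℝ ∞ σ) (x : ℝ) :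
    HasDerivAt σ (deriv σ x) x :=
  ((h.differentiable (by simp)) x).hasDerivAt

theorem contDiff_deriv {σ : ℝ → ℝ} (h : ContDiff ℝ ∞ σ) : ContDiff ℝ ∞ (deriv σ) :=
  (contDiff_infty_iff_deriv.1 h).2

theorem hasDerivAt_deriv {σ : ℝ → ℝ} (h : ContDiff ℝ ∞ σ) (x : ℝ) :
    HasDerivAt (deriv σ) (deriv (deriv σ) x) x :=
  hasDerivAt_self (contDiff_deriv h) x

theorem Mop10 (σ : ℝ → ℝ) (x : ℝ) :
    Mop 10 σ x = x ^ 2 * deriv (deriv σ) x + 22 * x * deriv σ x + 110 * σ x := by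
  unfold Mop
  push_cast
  ring

theorem hasDerivAt_Y0 {σ : ℝ → ℝ} (h : ContDiff ℝ ∞ σ) {x : ℝ} (hx : x ≠ 0) :
    HasDerivAt (Y0 σ) (Y1 σ x / x) x := by
  have h1 : HasDerivAt (Y0 σ) _ x := ((hasDerivAt_id x).mul (hasDerivAt_self h x)).const_sub 1
  refine h1.congr_deriv ?_
  simp only [Y1, id]
  field_simp
  ring

theorem hasDerivAt_Y1 {σ : ℝ → ℝ} (h : ContDiff ℝ ∞ σ) {x : ℝ} (hx : x ≠ 0) :
    HasDerivAt (Y1 σ) (Y2 σ x / x) x := by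
  have h1 : HasDerivAt (Y1 σ) _ x := (((hasDerivAt_id x).neg).mul (hasDerivAt_self h x)).sub
    ((hasDerivAt_pow 2 x).mul (hasDerivAt_deriv h x))
  refine h1.congr_deriv ?_
  simp only [Y2, Mop10, id, Pi.neg_apply]
  field_simp
  push_cast
  ring

theorem hasDerivAt_Y2 {ρ σ : ℝ → ℝ} {a K : ℝ} (h : IVP ρ a K σ) {x : ℝ} (hx : x ≠ 0) :
    HasDerivAt (Y2 σ) (Y3 ρ K σ x / x) x := by
  have h1 : HasDerivAt (Y2 σ) _ x :=
    ((((hasDerivAt_id x).const_mul 109).mul (hasDerivAt_self h.smooth x)).add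
    (((hasDerivAt_pow 2 x).const_mul 19).mul (hasDerivAt_deriv h.smooth x))).sub
    ((hasDerivAt_id x).mul (h.ode x))
  refine h1.congr_deriv ?_
  simp only [Y3, Y2, Y1, Y0, Mop10, id]
  field_simp
  push_cast
  ring

end Vale.Agent.P264Z.S
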